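import Vale.Agent.P287Z.D.Defs

/-!
# The class of a point which is not isolated is torsion
-/

open MvPolynomial

namespace Vale.Agent.P287Z

open Gr Vale.Agent.P294.V

variable {ν : ℕ}

theorem sum_hpart (f : Sn ν) :
    ∑ n ∈ Finset.range (f.totalDegree + 1), hpart (2 * (n : ℤ)) f = f := by
  simp only [hpart_two_mul]
  exact sum_homogeneousComponent f

theorem exists_hg_not_mem {J K : Ideal (Sn ν)} (hJ : IH J) (h : ¬ J ≤ K) :
    ∃ (d : ℕ) (a : Sn ν), Hg (2 * (d : ℤ)) a ∧ a ∈ J ∧ a ∉ K := by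
  by_contra! h'
  refine h fun f hf => ?_
  rw [← sum_hpart f]
  exact K.sum_mem fun n _ => h' n _ (hga_hpart _ _) (hJ f hf _)

/-- the ideal quotient `(J : a)` -/
def cln (J : Ideal (Sn ν)) (a : Sn ν) : Ideal (Sn ν) where
  carrier := {f | a * f ∈ J}
  zero_mem' := by simp
  add_mem' {f g} h h' := by
    change a * (f + g) ∈ J
    rw [mul_add]
    exact J.add_mem h h'
  smul_mem' c f h := by
    change a * (c * f) ∈ J
    rw [mul_left_comm]
    exact J.mul_mem_left c h

theorem mem_cln {J : Ideal (Sn ν)} {a f : Sn ν} : f ∈ cln J a ↔ a * f ∈ J := Iff.rfl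

theorem le_cln (J : Ideal (Sn ν)) (a : Sn ν) : J ≤ cln J a := fun _ h => J.mul_mem_left a h

theorem ih_cln {J : Ideal (Sn ν)} (hJ : IH J) {k : ℤ} {a : Sn ν} (ha : Hg k a) : IH (cln J a) :=
  fun f hf l => by
    have := hJ _ hf (l + k)
    rwa [hpart_mul ha, add_sub_cancel_right] at this

theorem ih_sup {J K : Ideal (Sn ν)} (hJ : IH J) (hK : IH K) : IH (J ⊔ K) := fun f hf l => by
  obtain ⟨u, hu, v, hv, rfl⟩ := Submodule.mem_sup.1 hf
  rw [hpart_add]
  exact Submodule.add_mem_sup (hJ u hu l) (hK v hv l)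

theorem mu_zero {I p Q : Ideal (Sn ν)} (μ : Ideal (Sn ν) → ℤ) (hp : IH p) (hQ : IH Q)
    (hQp : Q.IsPrime) (hI : I ≤ Q) (hlt : Q < p)
    (h1 : ∀ J, IH J → I ≤ J → ∀ (d : ℕ) a, Hg (2 * (d : ℤ)) a →
      μ J = μ (cln J a) + μ (J ⊔ Ideal.span {a}))
    (h2 : ∀ J, IH J → I ≤ J → ¬ J ≤ p → μ J = 0) : μ p = 0 := by
  by_contra h0
  have key (J : Ideal (Sn ν)) : IH J → I ≤ J → ∃ n : ℕ, μ J = n * μ p ∧ (J ≤ p → 1 ≤ n) := by
    induction J using WellFoundedGT.induction with
    | ind J ih =>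
      intro hJ hIJ
      by_cases h : J ≤ p
      swap
      · exact ⟨0, by rw [h2 J hJ hIJ h]; simp, fun h' => absurd h' h⟩
      rcases h.eq_or_lt with rfl | h3
      · exact ⟨1, by simp, fun _ => le_rfl⟩
      obtain ⟨d, a, ha, hap, haJ⟩ := exists_hg_not_mem hp h3.not_ge
      have h4 : J < J ⊔ Ideal.span {a} := lt_of_le_of_ne le_sup_left fun e =>
        haJ (e ▸ Submodule.mem_sup_right (Ideal.mem_span_singleton_self a))
      obtain ⟨n, hn, hn'⟩ := ih _ h4 (ih_sup hJ (ih_span ha)) (hIJ.trans le_sup_left)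
      have h5 := hn' (sup_le h ((Ideal.span_singleton_le_iff_mem _).2 hap))
      have h6 := h1 J hJ hIJ d a ha
      rcases (le_cln J a).eq_or_lt with e | h7
      · rw [← e, hn] at h6
        have h8 : (n : ℤ) * μ p = 0 := by linarith
        exact absurd ((mul_eq_zero.1 h8).resolve_right h0) (by lia)
      · obtain ⟨m, hm, -⟩ := ih _ h7 (ih_cln hJ ha) (hIJ.trans (le_cln J a))
        exact ⟨m + n, by rw [h6, hm, hn]; push_cast; ring, fun _ => by lia⟩
  obtain ⟨d, a, ha, hap, haQ⟩ := exists_hg_not_mem hp hlt.not_ge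
  obtain ⟨n, hn, hn'⟩ := key _ (ih_sup hQ (ih_span ha)) (hI.trans le_sup_left)
  have h5 := hn' (sup_le hlt.le ((Ideal.span_singleton_le_iff_mem _).2 hap))
  have h6 := h1 Q hQ hI d a ha
  have e : cln Q a = Q :=
    le_antisymm (fun f hf => (hQp.mem_or_mem hf).resolve_left haQ) (le_cln Q a)
  rw [e, hn] at h6
  have h8 : (n : ℤ) * μ p = 0 := by linarith
  exact absurd ((mul_eq_zero.1 h8).resolve_right h0) (by lia)

/-- the homogeneous ideal of the point `x` -/
def ptI (x : Fin ν → ℂ) : Ideal (Sn ν) where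
  carrier := {f | ∀ n : ℕ, eval x (homogeneousComponent n f) = 0}
  zero_mem' := by simp
  add_mem' {f g} h h' n := by rw [map_add, map_add, h n, h' n, add_zero]
  smul_mem' c f h n := by
    rw [smul_eq_mul, ← sum_hpart c, Finset.sum_mul, map_sum, map_sum]
    refine Finset.sum_eq_zero fun k _ => ?_
    rw [← hpart_two_mul, hpart_mul (hga_hpart _ _), map_mul]
    rcases le_or_gt k n with hk | hk
    · obtain ⟨l, rfl⟩ := Nat.exists_eq_add_of_le hk
      rw [show 2 * ((k + l : ℕ) : ℤ) - 2 * (k : ℤ) = 2 * (l : ℤ) by push_cast; ring,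
        hpart_two_mul l, h l, mul_zero]
    · rw [hga_neg_eq_zero (hga_hpart (2 * (n : ℤ) - 2 * k) f) (by lia), map_zero, mul_zero]

theorem mem_ptI {x : Fin ν → ℂ} {k : ℤ} {f : Sn ν} (hf : Hg k f) : f ∈ ptI x ↔ eval x f = 0 := by
  constructor
  · intro h
    rw [← sum_homogeneousComponent f, map_sum]
    exact Finset.sum_eq_zero fun n _ => h n
  · intro h n
    rw [← hpart_two_mul]
    by_cases e : 2 * (n : ℤ) = k
    · rw [e, hpart_eq_self hf, h]
    · have := hpart_mul hf 1 (2 * (n : ℤ))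
      rw [mul_one] at this
      rw [this, map_mul, h, zero_mul]

theorem ih_ptI (x : Fin ν → ℂ) : IH (ptI x) := ih_iff.2 fun f hf n =>
  (mem_ptI (hg_of_hom (homogeneousComponent_isHomogeneous n f))).2 (hf n)

end Vale.Agent.P287Z
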