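import Vale.Agent.P287Z.D.Pi
import Mathlib.CategoryTheory.Triangulated.Yoneda

/-!
# The Euler form: transport along fully faithful functors, additivity on triangles
-/

set_option linter.unusedSectionVars false

open CategoryTheory Limits Pretriangulated Module

universe v u v' u'

namespace Vale.Agent.P287Z

section

variable {𝒟 : Type u} [Category.{v} 𝒟] [Preadditive 𝒟] [Linear ℂ 𝒟]
  {𝒟' : Type u'} [Category.{v'} 𝒟'] [Preadditive 𝒟'] [Linear ℂ 𝒟']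

/-- a fully faithful linear functor is a linear equivalence on morphisms -/
noncomputable def homEq (Φ : 𝒟 ⥤ 𝒟') [Φ.Additive] [Φ.Linear ℂ] [Φ.Full] [Φ.Faithful] (A B : 𝒟)
    {B' : 𝒟'} (e : Φ.obj B ≅ B') : (A ⟶ B) ≃ₗ[ℂ] (Φ.obj A ⟶ B') :=
  (LinearEquiv.ofBijective (Φ.mapLinearMap ℂ) ⟨Φ.map_injective, Φ.map_surjective⟩).trans
    (Linear.homCongr ℂ (Iso.refl _) e)

theorem homEq_apply (Φ : 𝒟 ⥤ 𝒟') [Φ.Additive] [Φ.Linear ℂ] [Φ.Full] [Φ.Faithful] (A B : 𝒟)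
    {B' : 𝒟'} (e : Φ.obj B ≅ B') (f : A ⟶ B) : homEq Φ A B e f = Φ.map f ≫ e.hom := by
  simp only [homEq, LinearEquiv.trans_apply, Linear.homCongr_apply, Iso.refl_inv, Category.id_comp]
  rfl

variable [HasShift 𝒟 ℤ] [HasShift 𝒟' ℤ]

theorem finH_of_equiv {E E' : 𝒟} {F F' : 𝒟'}
    (e : ∀ k : ℤ, (E ⟶ E'⟦k⟧) ≃ₗ[ℂ] (F ⟶ F'⟦k⟧)) (h : FinH E E') : FinH F F' := by
  obtain ⟨h1, s, h2⟩ := h
  refine ⟨fun k => have := h1 k; Module.Finite.equiv (e k), s, fun k hk f => ?_⟩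
  obtain ⟨g, rfl⟩ := (e k).surjective f
  rw [h2 k hk g, map_zero]

theorem chi_of_equiv {E E' : 𝒟} {F F' : 𝒟'}
    (e : ∀ k : ℤ, (E ⟶ E'⟦k⟧) ≃ₗ[ℂ] (F ⟶ F'⟦k⟧)) : chi E E' = chi F F' :=
  finsum_congr fun k => by rw [(e k).finrank_eq]

variable (Φ : 𝒟 ⥤ 𝒟') [Φ.Additive] [Φ.Linear ℂ] [Φ.Full] [Φ.Faithful] [Φ.CommShift ℤ]

theorem finH_map_iff (E E' : 𝒟) : FinH (Φ.obj E) (Φ.obj E') ↔ FinH E E' :=
  ⟨finH_of_equiv fun k => (homEq Φ E _ ((Φ.commShiftIso k).app E')).symm,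
    finH_of_equiv fun k => homEq Φ E _ ((Φ.commShiftIso k).app E')⟩

theorem chi_map (E E' : 𝒟) : chi (Φ.obj E) (Φ.obj E') = chi E E' :=
  (chi_of_equiv fun k => homEq Φ E _ ((Φ.commShiftIso k).app E')).symm

theorem chi_iso {E F : 𝒟} (e : E ≅ F) (Y : 𝒟) : chi E Y = chi F Y :=
  chi_of_equiv fun _ => Linear.homCongr ℂ e (Iso.refl _)

theorem chi_eq_zero {E Y : 𝒟} (h : ∀ (k : ℤ) (f : E ⟶ Y⟦k⟧), f = 0) : chi E Y = 0 :=
  finsum_eq_zero_of_forall_eq_zero fun k => by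
    have : Subsingleton (E ⟶ Y⟦k⟧) := ⟨fun f g => (h k f).trans (h k g).symm⟩
    rw [finrank_zero_of_subsingleton, Nat.cast_zero, mul_zero]

theorem chi_eq_one {E Y : 𝒟} (h : ∀ k : ℤ, k ≠ 0 → ∀ f : E ⟶ Y⟦k⟧, f = 0)
    (h0 : finrank ℂ (E ⟶ Y) = 1) : chi E Y = 1 := by
  rw [chi, finsum_eq_single _ 0]
  · rw [← (Linear.homCongr ℂ (Iso.refl E) ((shiftFunctorZero 𝒟 ℤ).app Y).symm).finrank_eq]
    simp [h0]
  · intro k hk
    have : Subsingleton (E ⟶ Y⟦k⟧) := ⟨fun f g => (h k hk f).trans (h k hk g).symm⟩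
    rw [finrank_zero_of_subsingleton, Nat.cast_zero, mul_zero]

end

section

variable {𝒟 : Type u} [Category.{v} 𝒟] [Preadditive 𝒟] [Linear ℂ 𝒟] [HasZeroObject 𝒟]
  [HasShift 𝒟 ℤ] [∀ n : ℤ, (shiftFunctor 𝒟 n).Additive] [∀ n : ℤ, (shiftFunctor 𝒟 n).Linear ℂ]
  [Pretriangulated 𝒟]

/-- the rank of the composition with `u` -/
noncomputable def rk {A B : 𝒟} (u : A ⟶ B) (Z : 𝒟) : ℕ :=
  finrank ℂ (LinearMap.range (Linear.leftComp ℂ Z u))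

theorem rk_tri (T : Triangle 𝒟) (hT : T ∈ distTriang 𝒟) (Z : 𝒟) [Module.Finite ℂ (T.obj₂ ⟶ Z)] :
    finrank ℂ (T.obj₂ ⟶ Z) = rk T.mor₁ Z + rk T.mor₂ Z := by
  rw [← LinearMap.finrank_range_add_finrank_ker (Linear.leftComp ℂ Z T.mor₁), rk, rk]
  have : LinearMap.ker (Linear.leftComp ℂ Z T.mor₁) =
      LinearMap.range (Linear.leftComp ℂ Z T.mor₂) := by
    ext f
    constructor
    · intro h
      obtain ⟨g, hg⟩ := T.yoneda_exact₂ hT f h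
      exact ⟨g, hg.symm⟩
    · rintro ⟨g, rfl⟩
      change T.mor₁ ≫ T.mor₂ ≫ g = 0
      rw [← Category.assoc, comp_distTriang_mor_zero₁₂ T hT, zero_comp]
  rw [this]

theorem rk_shift {A B : 𝒟} (u : A ⟶ B) (Y : 𝒟) (k : ℤ) :
    rk (-u⟦(1 : ℤ)⟧') (Y⟦k + 1⟧) = rk u (Y⟦k⟧) := by
  let e := ((shiftFunctorAdd' 𝒟 k 1 (k + 1) rfl).app Y).symm
  let eA := homEq (shiftFunctor 𝒟 (1 : ℤ)) A (Y⟦k⟧) e
  let eB := homEq (shiftFunctor 𝒟 (1 : ℤ)) B (Y⟦k⟧) e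
  have : LinearMap.range (Linear.leftComp ℂ (Y⟦k + 1⟧) (-u⟦(1 : ℤ)⟧')) =
      (LinearMap.range (Linear.leftComp ℂ (Y⟦k⟧) u)).map eA.toLinearMap := by
    ext f
    constructor
    · rintro ⟨g, rfl⟩
      obtain ⟨g, rfl⟩ := eB.surjective g
      refine ⟨_, ⟨-g, rfl⟩, ?_⟩
      change eA (u ≫ (-g)) = (-u⟦(1 : ℤ)⟧') ≫ eB g
      rw [homEq_apply, homEq_apply]
      simp
    · rintro ⟨_, ⟨g, rfl⟩, rfl⟩
      refine ⟨eB (-g), ?_⟩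
      change (-u⟦(1 : ℤ)⟧') ≫ eB (-g) = eA (u ≫ g)
      rw [homEq_apply, homEq_apply]
      simp
  rw [rk, rk, this, LinearEquiv.finrank_map_eq]

theorem FinH.supp {E Y : 𝒟} (h : FinH E Y) : Function.HasFiniteSupport
    fun k : ℤ => (k.negOnePow : ℤ) * (finrank ℂ (E ⟶ Y⟦k⟧) : ℤ) := by
  obtain ⟨-, s, hs⟩ := h
  refine s.finite_toSet.subset fun k hk => ?_
  by_contra h
  have : Subsingleton (E ⟶ Y⟦k⟧) := ⟨fun f g => (hs k h f).trans (hs k h g).symm⟩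
  exact hk (by simp only [finrank_zero_of_subsingleton, Nat.cast_zero, mul_zero])

/-- additivity of the Euler form in the first variable -/
theorem chi_tri (T : Triangle 𝒟) (hT : T ∈ distTriang 𝒟) (Y : 𝒟) (h1 : FinH T.obj₁ Y)
    (h2 : FinH T.obj₂ Y) (h3 : FinH T.obj₃ Y) : chi T.obj₂ Y = chi T.obj₁ Y + chi T.obj₃ Y := by
  let g (k : ℤ) : ℤ := (k.negOnePow : ℤ) * (rk T.mor₃ (Y⟦k⟧) : ℤ)
  have e2 (k : ℤ) : finrank ℂ (T.obj₂ ⟶ Y⟦k⟧) = rk T.mor₁ (Y⟦k⟧) + rk T.mor₂ (Y⟦k⟧) :=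
    have := h2.1 k; rk_tri T hT _
  have e3 (k : ℤ) : finrank ℂ (T.obj₃ ⟶ Y⟦k⟧) = rk T.mor₂ (Y⟦k⟧) + rk T.mor₃ (Y⟦k⟧) :=
    have : Module.Finite ℂ (T.rotate.obj₂ ⟶ Y⟦k⟧) := h3.1 k
    rk_tri T.rotate (rot_of_distTriang T hT) _
  have e1 (k : ℤ) : finrank ℂ (T.obj₁ ⟶ Y⟦k⟧) = rk T.mor₃ (Y⟦k + 1⟧) + rk T.mor₁ (Y⟦k⟧) := by
    let e := homEq (shiftFunctor 𝒟 (1 : ℤ)) T.obj₁ (Y⟦k⟧)
      ((shiftFunctorAdd' 𝒟 k 1 (k + 1) rfl).app Y).symm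
    have := h1.1 k
    have : Module.Finite ℂ (T.rotate.rotate.obj₂ ⟶ Y⟦k + 1⟧) := Module.Finite.equiv e
    rw [e.finrank_eq, ← rk_shift T.mor₁ Y k]
    exact rk_tri T.rotate.rotate (rot_of_distTriang _ (rot_of_distTriang T hT)) _
  have hg : Function.HasFiniteSupport g := h3.supp.subset fun k hk h0 => hk (by
    have h4 : finrank ℂ (T.obj₃ ⟶ Y⟦k⟧) = 0 := by
      exact_mod_cast (mul_eq_zero.1 h0).resolve_left (Units.ne_zero _)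
    have h5 : rk T.mor₃ (Y⟦k⟧) = 0 := by have := e3 k; lia
    simp only [g, h5, Nat.cast_zero, mul_zero])
  have hg' : Function.HasFiniteSupport fun k => g (k + 1) :=
    hg.preimage (add_left_injective 1).injOn
  have hs : ∑ᶠ k, g (k + 1) = ∑ᶠ k, g k := finsum_comp_equiv (Equiv.addRight (1 : ℤ))
  have key : chi T.obj₂ Y + ∑ᶠ k, g k = chi T.obj₁ Y + chi T.obj₃ Y + ∑ᶠ k, g (k + 1) := by
    rw [chi, chi, chi, ← finsum_add_distrib h2.supp hg, add_assoc,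
      ← finsum_add_distrib h3.supp hg',
      ← finsum_add_distrib h1.supp (g := fun k => _ + g (k + 1)) (h3.supp.add hg')]
    refine finsum_congr fun k => ?_
    simp only [g, e1, e2, e3, Int.negOnePow_succ, Units.val_neg]
    push_cast
    ring
  rw [hs] at key
  exact add_right_cancel key

end

end Vale.Agent.P287Z
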