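import Vale.Agent.P287Z.D.Qg

/-!
# Projective schemes over `ℂ`, the Kuznetsov component of a cubic fourfold
-/

open CategoryTheory AlgebraicGeometry MvPolynomial Vale.Agent.P294Z

universe w

namespace Vale.Agent.P287Z

section

variable {ν : ℕ} (I : Ideal (MvPolynomial (Fin ν) ℂ))

/-- `I` is a homogeneous ideal -/
def IsHom : Prop := ∀ f ∈ I, ∀ n : ℕ, homogeneousComponent n f ∈ I

/-- the grading of `ℂ[x] / I` by the degree -/
noncomputable def gr (n : ℕ) : Submodule ℂ (MvPolynomial (Fin ν) ℂ ⧸ I) :=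
  (homogeneousSubmodule (Fin ν) ℂ n).map (Ideal.Quotient.mkₐ ℂ I).toLinearMap

variable [hI : Fact (IsHom I)]

theorem gr_graded : Nonempty (GradedAlgebra (gr I)) := Gr.qg_graded hI.out

noncomputable instance grGraded : GradedAlgebra (gr I) := (gr_graded I).some

/-- the projective scheme `Proj ℂ[x] / I` -/
noncomputable def PI : Scheme.{0} := Proj (gr I)

noncomputable instance overPI : (PI I).Over (Spec (.of ℂ)) := projOver (gr I)

theorem pres : Gr.Pres (gr I) I (Ideal.Quotient.mkₐ ℂ I) :=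
  ⟨fun _ _ => Iff.rfl, fun _ => Ideal.Quotient.eq_zero_iff_mem, Gr.ih_iff.2 hI.out⟩

instance noethPI : IsLocallyNoetherian (PI I) := (pres I).chart.locNoeth

theorem twO_coh (n : ℤ) : coh (PI I) (twO (gr I) n) :=
  (Gr.Chart.Triv.tilde (pres I).hom (a := -n)
    ((pres I).triv_eO n (2 * -n / 2) (by lia))).fp (Gr.FrO.fg I)

/-- Serre's twisting sheaf `𝒪(n)`, as a coherent sheaf -/
noncomputable def Oc (n : ℤ) : Coh (PI I) := ⟨twO (gr I) n, twO_coh I n⟩

/-- `D^b(Coh (Proj ℂ[x] / I))` -/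
abbrev DbP [HasDerivedCategory.{w} (Coh (PI I))] : Type 1 := P294.Stm.Db (Coh (PI I))

/-- the objects `E` with `Hom(𝒪(i), E[k]) = 0` for `0 ≤ i ≤ 2` and all `k` -/
def Ku [HasDerivedCategory.{w} (Coh (PI I))] : ObjectProperty (DbP I) := fun E =>
  ∀ i : ℤ, 0 ≤ i → i ≤ 2 → ∀ k : ℤ,
    ∀ f : (DerivedCategory.singleFunctor (Coh (PI I)) 0).obj (Oc I i) ⟶ E.obj⟦k⟧, f = 0

end

/-- the ideal of a cubic form is homogeneous -/
instance isHom_span {ν : ℕ} (F : MvPolynomial (Fin ν) ℂ) [h : Fact (F.IsHomogeneous 3)] :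
    Fact (IsHom (Ideal.span {F})) := ⟨Gr.ih_iff.1 (Gr.ih_span (Gr.hg_of_hom h.out))⟩

end Vale.Agent.P287Z
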