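import Vale.Agent.P287Z.D.Alg
import Mathlib.Topology.KrullDimension
import Mathlib.AlgebraicGeometry.Properties

/-!
# A projective scheme of positive dimension has a closed point which is not isolated
-/

open MvPolynomial AlgebraicGeometry TopologicalSpace

namespace Vale.Agent.P287Z

open Gr Vale.Agent.P294.V

variable {ν : ℕ} (I : Ideal (Sn ν)) [Fact (IsHom I)]

theorem decompose_mk (f : Sn ν) (n : ℕ) :
    (DirectSum.decompose (gr I) (Ideal.Quotient.mk I f) n : Sn ν ⧸ I) =
      Ideal.Quotient.mk I (homogeneousComponent n f) := by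
  have h (k : ℕ) : Ideal.Quotient.mk I (homogeneousComponent k f) ∈ gr I k :=
    ⟨_, homogeneousComponent_isHomogeneous k f, rfl⟩
  conv_lhs => rw [← sum_homogeneousComponent f, map_sum, DirectSum.decompose_sum,
    DirectSum.sum_apply, AddSubmonoidClass.coe_finsetSum]
  rw [Finset.sum_eq_single n]
  · exact DirectSum.decompose_of_mem_same _ (h n)
  · intro j _ hj
    exact DirectSum.decompose_of_mem_ne _ (h j) hj
  · intro hn
    rw [homogeneousComponent_eq_zero n f (by simpa using hn), map_zero, DirectSum.decompose_zero]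
    rfl

theorem ih_comap (p : ProjectiveSpectrum (gr I)) :
    IH (p.asHomogeneousIdeal.toIdeal.comap (Ideal.Quotient.mk I)) := ih_iff.2 fun f hf n => by
  rw [Ideal.mem_comap, ← decompose_mk]
  exact p.asHomogeneousIdeal.isHomogeneous n hf

theorem exists_pt (h : 1 ≤ topologicalKrullDim (PI I)) :
    ∃ (x : Fin ν → ℂ) (i : Fin ν) (Q : Ideal (Sn ν)), x i ≠ 0 ∧ IH Q ∧ Q.IsPrime ∧ I ≤ Q ∧
      Q < ptI x := by
  obtain ⟨Z, Z', hZ⟩ := Order.one_le_krullDim_iff.1 h
  obtain ⟨y, hy⟩ := QuasiSober.sober Z.isIrreducible Z.isClosed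
  obtain ⟨z, hz⟩ := QuasiSober.sober Z'.isIrreducible Z'.isClosed
  let y' : ProjectiveSpectrum (gr I) := y
  let z' : ProjectiveSpectrum (gr I) := z
  have h1 : z' ≤ y' := (ProjectiveSpectrum.le_iff_mem_closure _ z' y').2 (by
    have : y ∈ closure ({z} : Set (PI I)) := by
      rw [hz.def]
      exact hZ.le hy.mem
    exact this)
  have h2 : z' ≠ y' := fun e => hZ.ne (IrreducibleCloseds.ext (by
    have e' : z = y := e
    rw [← hy.def, ← hz.def, e']))
  obtain ⟨i, hi⟩ := Opens.mem_iSup.1 ((pres I).cov.ge (Set.mem_univ y))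
  have hi' : X i ∉ y'.asHomogeneousIdeal.toIdeal.comap (Ideal.Quotient.mk I) := hi
  have h3 := y'.isPrime
  have h4 := z'.isPrime
  have h5 : (y'.asHomogeneousIdeal.toIdeal.comap (Ideal.Quotient.mk I)).IsPrime :=
    Ideal.comap_isPrime _ _
  rw [← h5.radical, ← vanishingIdeal_zeroLocus_eq_radical (K := ℂ), mem_vanishingIdeal_iff] at hi'
  push Not at hi'
  obtain ⟨x, hx, hx'⟩ := hi'
  refine ⟨x, i, z'.asHomogeneousIdeal.toIdeal.comap (Ideal.Quotient.mk I), by simpa using hx',
    ih_comap I z', Ideal.comap_isPrime _ _, fun f hf => ?_, lt_of_lt_of_le (b :=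
      y'.asHomogeneousIdeal.toIdeal.comap (Ideal.Quotient.mk I)) ?_ fun f hf n => ?_⟩
  · rw [Ideal.mem_comap, Ideal.Quotient.eq_zero_iff_mem.2 hf]
    exact zero_mem _
  · refine lt_of_le_of_ne (Ideal.comap_mono h1) fun e => h2 ?_
    exact ProjectiveSpectrum.ext (HomogeneousIdeal.toIdeal_injective
      (Ideal.comap_injective_of_surjective _ Ideal.Quotient.mk_surjective e))
  · exact hx _ (ih_iff.1 (ih_comap I y') f hf n)

end Vale.Agent.P287Z
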