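import Vale.Agent.P287Z.D.Chi

/-!
# A vanishing criterion for morphisms in the derived category
-/

open CategoryTheory Limits Category HomologicalComplex

universe w v u

namespace Vale.Agent.P287Z

variable {C : Type u} [Category.{v} C] [Abelian C]

/-- the chain map given by a natural transformation -/
noncomputable def natC {τ : C ⥤ C} [τ.Additive] (f : 𝟭 C ⟶ τ) (K : CochainComplex C ℤ) :
    K ⟶ (τ.mapHomologicalComplex _).obj K where
  f i := f.app (K.X i)
  comm' _ _ _ := (f.naturality _).symm

theorem natC_nat {τ : C ⥤ C} [τ.Additive] (f : 𝟭 C ⟶ τ) {K L : CochainComplex C ℤ} (s : K ⟶ L) :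
    s ≫ natC f L = natC f K ≫ (τ.mapHomologicalComplex _).map s := by
  ext i
  exact f.naturality (s.f i)

theorem hom_zero [HasDerivedCategory.{w} C] {G T : C} {k : ℤ}
    (h : ∀ (A : C) (e : A ⟶ G), Epi e → ∃ (τ : C ⥤ C) (_ : τ.Additive)
      (_ : PreservesFiniteLimits τ) (_ : PreservesFiniteColimits τ) (f : 𝟭 C ⟶ τ),
      IsIso (f.app T) ∧ ∃ l : G ⟶ τ.obj A, l ≫ τ.map e = f.app G ∧ (k ≠ 0 ∨ l = 0))
    (ξ : (DerivedCategory.singleFunctor C 0).obj G ⟶
      ((DerivedCategory.singleFunctor C 0).obj T)⟦k⟧) : ξ = 0 := by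
  let e : ((DerivedCategory.singleFunctor C 0).obj T)⟦k⟧ ≅
      (DerivedCategory.singleFunctor C (-k)).obj T :=
    ((DerivedCategory.singleFunctors C).shiftIso k (-k) 0 (by lia)).app T
  let SG : CochainComplex C ℤ := (single C (ComplexShape.up ℤ) 0).obj G
  let ST : CochainComplex C ℤ := (single C (ComplexShape.up ℤ) (-k)).obj T
  let φ : DerivedCategory.Q.obj SG ⟶ DerivedCategory.Q.obj ST := ξ ≫ e.hom
  obtain ⟨K, hK, s, hs, g, hφ⟩ := DerivedCategory.right_fac_of_isStrictlyLE φ 0
  let p : K.X 0 ⟶ G := s.f 0 ≫ (singleObjXSelf (ComplexShape.up ℤ) 0 G).hom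
  have hp : Epi p := by
    apply Preadditive.epi_of_cancel_zero
    intro Z r hr
    have h1 : s ≫ (single C (ComplexShape.up ℤ) 0).map r = 0 := by
      apply HomologicalComplex.to_single_hom_ext
      rw [comp_f, single_map_f_self, zero_f, ← Category.assoc, ← Category.assoc]
      change (p ≫ r) ≫ _ = 0
      rw [hr, zero_comp]
    have h2 : DerivedCategory.Q.map ((single C (ComplexShape.up ℤ) 0).map r) = 0 := by
      rw [← cancel_epi (DerivedCategory.Q.map s), ← Functor.map_comp, h1, Functor.map_zero,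
        comp_zero]
    exact (DerivedCategory.singleFunctor C 0).map_injective (by
      rw [Functor.map_zero]; exact h2)
  obtain ⟨τ, _, _, _, f, hf, l, hl, hk⟩ := h _ p hp
  let τc := τ.mapHomologicalComplex (ComplexShape.up ℤ)
  let l' : SG ⟶ τc.obj K := mkHomFromSingle l (by
    rintro j (rfl : 0 + 1 = j)
    have : IsZero ((τc.obj K).X (0 + 1)) :=
      τ.map_isZero (K.isZero_of_isStrictlyLE 0 (0 + 1) (by lia))
    exact this.eq_of_tgt _ _)
  have h0 : l'.f 0 = (singleObjXSelf (ComplexShape.up ℤ) 0 G).hom ≫ l :=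
    mkHomFromSingle_f (K := τc.obj K) l _
  have h1 : l' ≫ τc.map s = natC f SG := by
    apply HomologicalComplex.from_single_hom_ext
    rw [comp_f, h0]
    have h2 : s.f 0 = p ≫ (singleObjXSelf (ComplexShape.up ℤ) 0 G).inv := by simp [p]
    change _ ≫ τ.map (s.f 0) = f.app (SG.X 0)
    rw [h2, τ.map_comp, assoc, ← assoc l, hl]
    exact (congrArg (_ ≫ ·) (f.naturality _).symm).trans (Iso.hom_inv_id_assoc _ _)
  have h2 : l' ≫ τc.map g = 0 := by
    apply HomologicalComplex.from_single_hom_ext
    rcases hk with hk | hk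
    · exact (τ.map_isZero (isZero_single_obj_X (ComplexShape.up ℤ) (-k) T 0 (by lia))).eq_of_tgt _ _
    · rw [comp_f, h0, hk, comp_zero]
      exact zero_comp
  have h3 : QuasiIso s := (DerivedCategory.isIso_Q_map_iff_quasiIso _ s).1 hs
  have h4 : IsIso (DerivedCategory.Q.map (τc.map s)) := inferInstance
  have h5 : DerivedCategory.Q.map (natC f K) =
      DerivedCategory.Q.map s ≫ DerivedCategory.Q.map l' := by
    rw [← cancel_mono (DerivedCategory.Q.map (τc.map s)), assoc, ← Functor.map_comp,
      ← Functor.map_comp, ← Functor.map_comp, h1, natC_nat]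
  have h6 : IsIso (natC f ST) := by
    have (i : ℤ) : IsIso ((natC f ST).f i) := by
      by_cases hi : i = -k
      · subst hi
        have : IsIso (f.app (ST.X (-k))) :=
          (NatTrans.isIso_app_iff_of_iso f (singleObjXSelf (ComplexShape.up ℤ) (-k) T)).2 hf
        exact this
      · have h7 := isZero_single_obj_X (ComplexShape.up ℤ) (-k) T i hi
        exact isIso_of_source_target_iso_zero _ h7.isoZero (τ.map_isZero h7).isoZero
    exact HomologicalComplex.Hom.isIso_of_components _
  have h7 : DerivedCategory.Q.map g = 0 := by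
    rw [← cancel_mono (DerivedCategory.Q.map (natC f ST)), ← Functor.map_comp, natC_nat,
      Functor.map_comp, h5, assoc, ← Functor.map_comp, h2, Functor.map_zero, comp_zero, zero_comp]
  rw [← cancel_mono e.hom, zero_comp]
  rw [h7, comp_zero] at hφ
  exact hφ

end Vale.Agent.P287Z
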