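import Vale.Agent.P287Z.D.Pt
import Vale.Agent.P287Z.D.Dim

/-!
# Block D: a hyperbolic pair in the Euler lattice
-/

open CategoryTheory Limits MvPolynomial Vale.Agent.P294Z

universe w w' v u

namespace Vale.Agent.P287Z

open Gr Vale.Agent.P294.V

section

variable {ν : ℕ} {I : Ideal (Sn ν)} {x : Fin ν → ℂ}
  {𝒞 : Type u} [Category.{v} 𝒞] [Abelian 𝒞] [Linear ℂ 𝒞] (π : GA I ⥤ 𝒞) [π.Additive]
  [π.IsLocalization (tors I).isoModSerre] [HasDerivedCategory.{w} 𝒞]

/-- the Euler form with values in `T` -/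
noncomputable def lam (T : 𝒞) (M : GA I) : ℤ :=
  chi ((DerivedCategory.singleFunctor 𝒞 0).obj (π.obj M))
    ((DerivedCategory.singleFunctor 𝒞 0).obj T)

variable {T : 𝒞} (hF : ∀ G : 𝒞, FinH ((DerivedCategory.singleFunctor 𝒞 0).obj G)
  ((DerivedCategory.singleFunctor 𝒞 0).obj T))

include hF

theorem lam_ses {S : ShortComplex (GA I)} (hS : S.ShortExact) :
    lam π T S.X₂ = lam π T S.X₁ + lam π T S.X₃ := by
  have := ObjectProperty.SerreClassLocalization.preservesFiniteLimits π (tors I)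
  have := ObjectProperty.SerreClassLocalization.preservesFiniteColimits π (tors I)
  have h := hS.map_of_exact π
  exact chi_tri _ h.singleTriangle_distinguished _ (hF _) (hF _) (hF _)

theorem lam_hom {M N : GA I} (f : M ⟶ N) (h1 : lam π T (kernel f) = 0)
    (h2 : lam π T (cokernel f) = 0) : lam π T M = lam π T N := by
  have e1 := lam_ses π hF (S := ShortComplex.mk (kernel.ι f) (cokernel.π (kernel.ι f))
    (cokernel.condition _)) (.mk (ShortComplex.exact_cokernel _))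
  have e2 := lam_ses π hF (S := ShortComplex.mk (kernel.ι (cokernel.π f)) (cokernel.π f)
    (kernel.condition _)) (.mk (ShortComplex.exact_kernel _))
  have e3 : lam π T (Abelian.coimage f) = lam π T (Abelian.image f) :=
    chi_iso ((DerivedCategory.singleFunctor 𝒞 0).mapIso
      (π.mapIso (Abelian.coimageIsoImage f))) _
  dsimp only at e1 e2
  rw [e1, e2, h1, h2, zero_add, add_zero]
  exact e3

omit hF in
theorem lam_killed (hx : I ≤ ptI x) {i : Fin ν} (hi : x i ≠ 0) {h : Sn ν} {d : ℕ}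
    (hh : Hg (2 * (d : ℤ)) h) (h0 : eval x h ≠ 0) {M : GA I} (hM : (mulA I hh).app M = 0) :
    lam π (π.obj (cy (ih_ptI x) hx)) M = 0 := chi_eq_zero (ext_killed π hx hi hh h0 hM)

end

section

variable {ν : ℕ} {I : Ideal (Sn ν)} {x : Fin ν → ℂ}
  {𝒞 : Type u} [Category.{v} 𝒞] [Abelian 𝒞] [Linear ℂ 𝒞] (π : GA I ⥤ 𝒞) [π.Additive]
  [π.IsLocalization (tors I).isoModSerre] [HasDerivedCategory.{w} 𝒞] (hx : I ≤ ptI x)
  (hF : ∀ G : 𝒞, FinH ((DerivedCategory.singleFunctor 𝒞 0).obj G)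
    ((DerivedCategory.singleFunctor 𝒞 0).obj (π.obj (cy (ih_ptI x) hx))))

include hF

theorem lam_tw {i : Fin ν} (hi : x i ≠ 0) (d : ℕ) (M : GA I) :
    lam π (π.obj (cy (ih_ptI x) hx)) ((twA I d).obj M) = lam π (π.obj (cy (ih_ptI x) hx)) M := by
  have hh : Hg (2 * (d : ℤ)) (X i ^ d : Sn ν) := hg_X_pow i d rfl
  have h0 : eval x (X i ^ d : Sn ν) ≠ 0 := by simpa using fun h => absurd h hi
  let f : M ⟶ (twA I d).obj M := (mulA I hh).app M
  refine (lam_hom π hF f (lam_killed π hx hi hh h0 ?_) (lam_killed π hx hi hh h0 ?_)).symm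
  · rw [← cancel_mono ((twA I d).map (kernel.ι f)), zero_comp]
    exact ((mulA I hh).naturality (kernel.ι f)).symm.trans (kernel.condition f)
  · rw [← cancel_epi (cokernel.π f), comp_zero]
    refine ((mulA I hh).naturality (cokernel.π f)).trans ?_
    rw [mulA_self]
    exact ((twA I d).map_comp f (cokernel.π f)).symm.trans (by
      rw [cokernel.condition, Functor.map_zero])

theorem lam_pt {i : Fin ν} (hi : x i ≠ 0) {Q : Ideal (Sn ν)} (hQ : IH Q) (hQp : Q.IsPrime)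
    (hI : I ≤ Q) (hlt : Q < ptI x) : lam π (π.obj (cy (ih_ptI x) hx)) (cy (ih_ptI x) hx) = 0 := by
  classical
  let μ (J : Ideal (Sn ν)) : ℤ :=
    if h : IH J ∧ I ≤ J then lam π (π.obj (cy (ih_ptI x) hx)) (cy h.1 h.2) else 0
  have hμ {J : Ideal (Sn ν)} (h : IH J) (h' : I ≤ J) :
      μ J = lam π (π.obj (cy (ih_ptI x) hx)) (cy h h') := dif_pos ⟨h, h'⟩
  rw [← hμ]
  refine mu_zero μ (ih_ptI x) hQ hQp hI hlt (fun J hJ h d a ha => ?_) fun J hJ h hn => ?_
  · obtain ⟨α, β, w, hS⟩ := cy_ses hJ h ha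
    have := lam_ses π hF hS
    dsimp only at this
    rw [lam_tw π hx hF hi, lam_tw π hx hF hi] at this
    rw [hμ hJ h, this, hμ, hμ]
  · obtain ⟨d, a, ha, h1, h2⟩ := exists_hg_not_mem hJ hn
    rw [hμ hJ h]
    refine lam_killed π hx hi ha (fun h0 => h2 ((mem_ptI ha).2 h0)) (ObjectProperty.hom_ext _ ?_)
    ext b y
    obtain ⟨f, hf, rfl⟩ := cl_surj J (a := b.deg) y
    exact (act_cl (b := b.deg + d) (by rwa [add_sub_cancel_left]) hf).trans
      (cl_eq_zero.2 (J.mul_mem_right _ h1))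

end

/-- a sheaf, as an object of the bounded derived category -/
noncomputable def sgl {𝒞 : Type u} [Category.{v} 𝒞] [Abelian 𝒞] [HasDerivedCategory.{w} 𝒞]
    (G : 𝒞) : P294.Stm.Db 𝒞 :=
  ⟨(DerivedCategory.singleFunctor 𝒞 0).obj G, ⟨0, inferInstance⟩, ⟨0, inferInstance⟩⟩

theorem ds : DS.{w} := by
  intro ν I _ _ hd hF
  obtain ⟨x, i, Q, hi, hQ, hQp, hI, hlt⟩ := exists_pt I hd
  have hx : I ≤ ptI x := hI.trans hlt.le
  let ι := (DerivedCategory.TStructure.t (C := Coh (PI I))).bounded.ι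
  have hF' (G T : Coh (PI I)) : FinH ((DerivedCategory.singleFunctor _ 0).obj G)
      ((DerivedCategory.singleFunctor _ 0).obj T) :=
    (finH_map_iff ι (sgl G) (sgl T)).2 (hF _ _)
  refine ⟨sgl ((piI I).obj (cy (ih_ptI x) hx)), sgl ((piI I).obj (cy (ih I) le_rfl)), ?_, ?_⟩
  · rw [← chi_map ι]
    exact lam_pt (piI I) hx (fun G => hF' G _) hi hQ hQp hI hlt
  · rw [← chi_map ι]
    refine chi_eq_one (ext_free (piI I) (ih I) hx hi) ?_
    exact (homEq (DerivedCategory.singleFunctor (Coh (PI I)) 0) _ _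
      (Iso.refl _)).finrank_eq.symm.trans (hom_pt (piI I) (ih I) hx hi)

/-- **block D** -/
theorem dx : DX.{w, w'} := by
  intro ν μ I _ J _ _ _ Φ _ _ _ _ _ hd hK hF
  obtain ⟨e, f, h1, h2⟩ := ds I hd fun E E' => (finH_map_iff Φ E E').1 (hF _ _ (hK E) (hK E'))
  exact ⟨Φ.obj e, Φ.obj f, hK e, hK f, (chi_map Φ e e).trans h1, (chi_map Φ f e).trans h2⟩

end Vale.Agent.P287Z
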