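import Vale.Agent.P287Z.D.Pi
import Vale.Agent.P287Z.D.Alg

/-!
# Multiplication by a form, cyclic modules
-/

open CategoryTheory Limits MvPolynomial

universe v u

namespace Vale.Agent.P287Z

open Gr Vale.Agent.P294.V

variable {ν : ℕ}

/-- multiplication by a form of degree `d` -/
noncomputable def mulS {h : Sn ν} {d : ℤ} (hh : Hg (2 * d) h) (M : GrS ν) :
    M ⟶ (twS d).obj M where
  app a := act M h a.deg (a.deg + d)
  naturality a b m := by
    ext x
    have h1 : Hg (2 * (b.deg - a.deg)) (monomial m.1 (1 : ℂ) : Sn ν) :=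
      hga_monomial 1 (by have := m.2; lia)
    have h2 := act_mul_apply h h1 (b.deg + d) x
    rw [act_monomial, one_smul, mon_apply_of_eq m.1 m.2] at h2
    exact h2.symm.trans (map_act (M := M) h (a := a.deg) (b := a.deg + d) (c := b.deg + d)
      (by rwa [add_sub_cancel_left]) m.1 (by have := m.2; lia) x).symm

theorem mulS_app {h : Sn ν} {d : ℤ} (hh : Hg (2 * d) h) (M : GrS ν) (a : ℤ) (x : M.obj ⟨a⟩) :
    (mulS hh M).app ⟨a⟩ x = act M h a (a + d) x := rfl

variable (I : Ideal (Sn ν))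

/-- multiplication by a form, as a natural transformation -/
noncomputable def mulA {h : Sn ν} {d : ℤ} (hh : Hg (2 * d) h) : 𝟭 (GA I) ⟶ twA I d where
  app M := ObjectProperty.homMk (mulS hh M.obj)
  naturality M N f := ObjectProperty.hom_ext _ (by
    ext a x
    exact (act_natural_apply f.hom h a.deg (a.deg + d) x).symm)

theorem mulA_tw {h : Sn ν} {d : ℤ} (hh : Hg (2 * d) h) (k : ℤ) (M : GA I)
    (h0 : (mulA I hh).app M = 0) : (mulA I hh).app ((twA I k).obj M) = 0 :=
  ObjectProperty.hom_ext _ (by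
    ext a x
    have h1 : act M.obj h (a.deg + k) (a.deg + k + d) x = 0 :=
      congr(($h0).hom.app ⟨a.deg + k⟩ x)
    change act ((twS k).obj M.obj) h a.deg (a.deg + d) x = 0
    rw [act_tw]
    have e : ∀ b, b = a.deg + k + d → act M.obj h (a.deg + k) b x = 0 := by
      rintro _ rfl
      exact h1
    exact e _ (by ring))

theorem mulA_self {h : Sn ν} {d : ℤ} (hh : Hg (2 * d) h) (M : GA I) :
    (mulA I hh).app ((twA I d).obj M) = (twA I d).map ((mulA I hh).app M) :=
  ObjectProperty.hom_ext _ (by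
    ext a x
    change act ((twS d).obj M.obj) h a.deg (a.deg + d) x = _
    rw [act_tw]
    rfl)

theorem exists_tw {𝒞 : Type u} [Category.{v} 𝒞] [Abelian 𝒞] (π : GA I ⥤ 𝒞) [π.Additive]
    [π.IsLocalization (tors I).isoModSerre] {h : Sn ν} {d : ℤ} (hh : Hg (2 * d) h) :
    ∃ (τ : 𝒞 ⥤ 𝒞) (_ : τ.Additive) (_ : PreservesFiniteLimits τ) (_ : PreservesFiniteColimits τ)
      (f : 𝟭 𝒞 ⟶ τ) (e : π ⋙ τ ≅ twA I d ⋙ π),
      ∀ M, f.app (π.obj M) = π.map ((mulA I hh).app M) ≫ e.inv.app M := by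
  have hi : (tors I).isoModSerre.IsInvertedBy (twA I d ⋙ π) := by
    intro M N f hf
    change IsIso (π.map ((twA I d).map f))
    rw [ObjectProperty.SerreClassLocalization.isIso_map_iff π (tors I)]
    exact ⟨(tors I).prop_of_iso (PreservesKernel.iso (twA I d) f) (tors_tw d hf.1),
      (tors I).prop_of_iso (PreservesCokernel.iso (twA I d) f) (tors_tw d hf.2)⟩
  let τ := Localization.lift (twA I d ⋙ π) hi π
  let e : π ⋙ τ ≅ twA I d ⋙ π := Localization.fac _ _ _
  have := ObjectProperty.SerreClassLocalization.preservesFiniteLimits π (tors I)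
  have := ObjectProperty.SerreClassLocalization.preservesFiniteColimits π (tors I)
  let _ : Localization.Lifting π (tors I).isoModSerre (twA I d ⋙ π) τ := ⟨e⟩
  let _ : Localization.Lifting π (tors I).isoModSerre (𝟭 _ ⋙ π) (𝟭 𝒞) := ⟨Iso.refl _⟩
  refine ⟨τ, (Localization.functor_additive_iff π (tors I).isoModSerre τ).2
    (Functor.additive_of_iso e.symm), ?_, ?_, Localization.liftNatTrans π (tors I).isoModSerre
      (𝟭 _ ⋙ π) (twA I d ⋙ π) _ _ (Functor.whiskerRight (mulA I hh) π), e, fun M => ?_⟩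
  · have := comp_preservesFiniteLimits (twA I d) π
    rw [← ObjectProperty.SerreClassLocalization.preservesFiniteLimits_comp_iff π (tors I)]
    exact preservesFiniteLimits_of_natIso e.symm
  · have := comp_preservesFiniteColimits (twA I d) π
    rw [← ObjectProperty.SerreClassLocalization.preservesFiniteColimits_comp_iff π (tors I)]
    exact preservesFiniteColimits_of_natIso e.symm
  · rw [Localization.liftNatTrans_app]
    exact Category.id_comp _

/-- one generator in degree zero -/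
abbrev z1 : Fin 1 → ℤ := fun _ => 0

variable {I}

/-- the cyclic module `ℂ[x] / J` -/
noncomputable def cy {J : Ideal (Sn ν)} (hJ : IH J) (h : I ≤ J) : GA I :=
  ⟨FrO J z1, FrO.killed_of J fun f hf k => hJ f (h hf) k, FrO.fg J⟩

/-- the class of a form -/
noncomputable def cl (J : Ideal (Sn ν)) {a : ℤ} (f : Sn ν) (hf : Hg (2 * a) f) :
    (FrO J z1).obj ⟨a⟩ := FrO.mk J (fun _ => f) fun _ => by simpa using hf

theorem cl_surj (J : Ideal (Sn ν)) {a : ℤ} (x : (FrO J z1).obj ⟨a⟩) : ∃ f hf, cl J f hf = x := by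
  obtain ⟨v, hv, rfl⟩ := FrO.mk_surj J x
  exact ⟨v 0, by simpa using hv 0, FrO.mk_congr J (funext fun i => by rw [Subsingleton.elim i 0])⟩

theorem cl_eq {J : Ideal (Sn ν)} {a : ℤ} {f g : Sn ν} {hf : Hg (2 * a) f} {hg : Hg (2 * a) g} :
    cl J f hf = cl J g hg ↔ f - g ∈ J := (FrO.mk_eq J).trans (forall_const _)

theorem cl_eq_zero {J : Ideal (Sn ν)} {a : ℤ} {f : Sn ν} {hf : Hg (2 * a) f} :
    cl J f hf = 0 ↔ f ∈ J := (FrO.mk_eq_zero J).trans (forall_const _)

theorem cl_smul {J : Ideal (Sn ν)} {a : ℤ} {f : Sn ν} (hf : Hg (2 * a) f) (c : ℂ) :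
    c • cl J f hf = cl J (c • f) (hga_smul c hf) := rfl

theorem act_cl {J : Ideal (Sn ν)} {a b : ℤ} {h f : Sn ν} (hh : Hg (2 * (b - a)) h)
    (hf : Hg (2 * a) f) :
    act (FrO J z1) h a b (cl J f hf) = cl J (h * f) (hga_mul' hh hf (by ring)) :=
  FrO.act_mk J hh _ _

theorem gen_eq (J : Ideal (Sn ν)) : gen J z1 0 = cl J (a := 0 / 2) 1 (by simpa using hga_one) := by
  rw [gen, dif_pos (by simp)]
  exact FrO.mk_congr J (funext fun i => by
    rw [Subsingleton.elim i 0]
    exact @Pi.single_eq_same _ _ _ (fun a b => Classical.propDecidable (a = b)) _ _)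

/-- the projection -/
noncomputable def cyPr {J K : Ideal (Sn ν)} (h : J ≤ K) : FrO J z1 ⟶ FrO K z1 where
  app a := ModuleCat.ofHom ((frW J z1 a.deg).mapQ (frW K z1 a.deg) LinearMap.id
    fun _ hv i => h (hv i))
  naturality a b m := by
    ext x
    obtain ⟨v, rfl⟩ := Submodule.Quotient.mk_surjective _ x
    rfl

theorem cyPr_cl {J K : Ideal (Sn ν)} (h : J ≤ K) {a : ℤ} {f : Sn ν} (hf : Hg (2 * a) f) :
    (cyPr h).app ⟨a⟩ (cl J f hf) = cl K f hf := rfl

/-- the multiplication `ℂ[x] / (J : g) → (ℂ[x] / J)(d)` -/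
noncomputable def cyMul (J : Ideal (Sn ν)) {g : Sn ν} {d : ℤ} (hg : Hg (2 * d) g) :
    FrO (cln J g) z1 ⟶ (twS d).obj (FrO J z1) where
  app a := ModuleCat.ofHom ((frW (cln J g) z1 a.deg).mapQ (frW J z1 (a.deg + d))
    { toFun v := ⟨fun i => g * v.1 i, fun i => hga_mul' hg (v.2 i) (by ring)⟩
      map_add' u v := Subtype.ext (funext fun i => mul_add g (u.1 i) (v.1 i))
      map_smul' c v := Subtype.ext (funext fun i => mul_smul_comm c g (v.1 i)) }
    fun _ hv i => hv i)
  naturality a b m := by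
    ext x
    obtain ⟨v, rfl⟩ := Submodule.Quotient.mk_surjective _ x
    change Submodule.Quotient.mk _ = Submodule.Quotient.mk _
    exact congrArg _ (Subtype.ext (funext fun i => mul_left_comm g _ (v.1 i)))

theorem cyMul_cl (J : Ideal (Sn ν)) {g : Sn ν} {d : ℤ} (hg : Hg (2 * d) g) {a : ℤ} {f : Sn ν}
    (hf : Hg (2 * a) f) : (cyMul J hg).app ⟨a⟩ (cl _ f hf) =
      cl J (a := a + d) (g * f) (hga_mul' hg hf (by ring)) := rfl

theorem cy_ses {J : Ideal (Sn ν)} (hJ : IH J) (h : I ≤ J) {g : Sn ν} {d : ℤ} (hg : Hg (2 * d) g) :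
    ∃ (α : cy (ih_cln hJ hg) (h.trans (le_cln J g)) ⟶ (twA I d).obj (cy hJ h))
      (β : (twA I d).obj (cy hJ h) ⟶
        (twA I d).obj (cy (ih_sup hJ (ih_span hg)) (h.trans le_sup_left))) (w : α ≫ β = 0),
      (ShortComplex.mk α β w).ShortExact := by
  refine ⟨ObjectProperty.homMk (cyMul J hg), (twA I d).map (ObjectProperty.homMk
    (cyPr le_sup_left)), ObjectProperty.hom_ext _ ?_, ?_⟩
  · ext a x
    obtain ⟨f, hf, rfl⟩ := cl_surj _ x
    exact (cl_eq_zero (a := a.deg + d) (hf := hga_mul' hg hf (by ring))).2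
      (Submodule.mem_sup_right (Ideal.mem_span_singleton.2 (dvd_mul_right g f)))
  · refine @ShortComplex.ShortExact.mk _ _ _ _ (GA_exact_of_apply I fun a x hx => ?_)
      (GA_mono_of_injective I _ fun a => ?_) (GA_epi_of_surjective I _ fun a x => ?_)
    · obtain ⟨f, hf, rfl⟩ := cl_surj J (a := a + d) x
      obtain ⟨u, hu, w, hw, e⟩ := Submodule.mem_sup.1 ((cl_eq_zero (hf := hf)).1 hx)
      obtain ⟨r, rfl⟩ := Ideal.mem_span_singleton.1 hw
      refine ⟨cl _ (hpart (2 * a) r) (hga_hpart _ _), (cyMul_cl J hg _).trans (cl_eq.2 ?_)⟩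
      have h1 := congrArg (hpart (2 * (a + d))) e
      rw [hpart_add, hpart_mul hg, hpart_eq_self hf, show 2 * (a + d) - 2 * d = 2 * a by ring] at h1
      rw [← h1, sub_add_cancel_right]
      exact J.neg_mem (hJ u hu _)
    · rw [injective_iff_map_eq_zero]
      intro x hx
      obtain ⟨f, hf, rfl⟩ := cl_surj _ x
      have h1 : g * f ∈ J := cl_eq_zero.1 ((cyMul_cl J hg hf).symm.trans hx)
      exact cl_eq_zero.2 h1
    · obtain ⟨f, hf, rfl⟩ := cl_surj _ (a := a + d) x
      exact ⟨cl J f hf, rfl⟩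

end Vale.Agent.P287Z
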