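import Vale.Agent.P287Z.D.Defs
import Vale.Agent.P287Z.Gr.Twist

/-!
# Serre's theorem for `Proj ℂ[x] / I`; the Euler form; the interface of block D
-/

open CategoryTheory Limits AlgebraicGeometry MvPolynomial Vale.Agent.P294Z

universe w w' v u

namespace Vale.Agent.P287Z

open Gr

section

variable {ν : ℕ} (I : Ideal (Sn ν)) [hI : Fact (IsHom I)]

theorem ih : IH I := ih_iff.2 hI.out

instance frOK_I : FrOK I := frOK I (ih I)

theorem okI : (pres I).chart.Ok := ⟨ih I, (pres I).hL⟩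

/-- the functor `M ↦ M^~` -/
noncomputable def piI : GA I ⥤ Coh (PI I) :=
  @Gr.Chart.Ok.pi ν (PI I) I (pres I).chart (okI I)

instance piI_add : (piI I).Additive := @Gr.Chart.Ok.pi_add ν (PI I) I (pres I).chart (okI I)

instance piI_lin : (piI I).Linear ℂ :=
  @Gr.Chart.Ok.pi_lin ν (PI I) I (pres I).chart (okI I) (linMod (PI I)) fun F t U s =>
    (exists_lin (PI I)).choose_spec F t U s

instance piI_loc : (piI I).IsLocalization (evIso I) :=
  @Gr.Chart.Ok.pi_loc ν (PI I) I (pres I).chart (okI I)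

instance piI_loc' : (piI I).IsLocalization (tors I).isoModSerre := by
  rw [isoModSerre_eq]
  infer_instance

instance piI_lim : PreservesFiniteLimits (piI I) :=
  ObjectProperty.SerreClassLocalization.preservesFiniteLimits (piI I) (tors I)

instance piI_colim : PreservesFiniteColimits (piI I) :=
  ObjectProperty.SerreClassLocalization.preservesFiniteColimits (piI I) (tors I)

/-- the sheaf of the free module with a generator in degree `-n` is `𝒪(n)` -/
theorem piI_free (n : ℤ) (q : Fin 1 → ℤ) (hq : q 0 = -2 * n) :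
    Nonempty ((piI I).obj (FrA I q) ≅ Oc I n) := by
  obtain rfl : q = fun _ => 2 * -n := funext fun i => by rw [Subsingleton.elim i 0, hq]; ring
  exact (okI I).pi_iso (M := FrA I fun _ : Fin 1 => 2 * -n) (E := Oc I n)
    (Gr.Chart.Triv.tilde (ih I) (a := -n) ((pres I).triv_eO n (2 * -n / 2) (by lia)))

end

section

variable {𝒟 : Type u} [Category.{v} 𝒟] [Preadditive 𝒟] [Linear ℂ 𝒟] [HasShift 𝒟 ℤ]

/-- the spaces `Hom(E, E'[k])` are finite-dimensional, and zero for almost all `k` -/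
def FinH (E E' : 𝒟) : Prop :=
  (∀ k : ℤ, Module.Finite ℂ (E ⟶ E'⟦k⟧)) ∧ ∃ s : Finset ℤ, ∀ k ∉ s, ∀ f : E ⟶ E'⟦k⟧, f = 0

/-- the Euler form -/
noncomputable def chi (E E' : 𝒟) : ℤ :=
  ∑ᶠ k : ℤ, (k.negOnePow : ℤ) * (Module.finrank ℂ (E ⟶ E'⟦k⟧) : ℤ)

end

/-- **block D, S-side**: if the Euler form of `D^b(Coh S)` is defined, it has a hyperbolic pair -/
def DS : Prop := ∀ {ν : ℕ} (I : Ideal (Sn ν)) [Fact (IsHom I)]
  [HasDerivedCategory.{w} (Coh (PI I))], 1 ≤ topologicalKrullDim (PI I) →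
  (∀ E E' : DbP I, FinH E E') → ∃ e f : DbP I, chi e e = 0 ∧ chi f e = 1

/-- **block D**: the output for `T` -/
def DX : Prop := ∀ {ν μ : ℕ} (I : Ideal (Sn ν)) [Fact (IsHom I)] (J : Ideal (Sn μ))
  [Fact (IsHom J)] [HasDerivedCategory.{w} (Coh (PI I))] [HasDerivedCategory.{w'} (Coh (PI J))]
  (Φ : DbP I ⥤ DbP J) [Φ.Additive] [Φ.Linear ℂ] [Φ.CommShift ℤ] [Φ.Full] [Φ.Faithful],
  1 ≤ topologicalKrullDim (PI I) → (∀ E, Ku J (Φ.obj E)) →
  (∀ E E' : DbP J, Ku J E → Ku J E' → FinH E E') →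
  ∃ e f : DbP J, Ku J e ∧ Ku J f ∧ chi e e = 0 ∧ chi f e = 1

end Vale.Agent.P287Z
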