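import Vale.Agent.P287Z.D.Mul
import Vale.Agent.P287Z.D.Eff
import Mathlib.Algebra.Homology.DerivedCategory.SingleTriangle

/-!
# Morphisms to the sheaf of a point
-/

open CategoryTheory Limits MvPolynomial

universe w v u

namespace Vale.Agent.P287Z

open Gr Vale.Agent.P294.V

variable {ν : ℕ} {I : Ideal (Sn ν)} {x : Fin ν → ℂ}

theorem mul_pt (hx : I ≤ ptI x) {i : Fin ν} (hi : x i ≠ 0) {h : Sn ν} {d : ℕ}
    (hh : Hg (2 * (d : ℤ)) h) (h0 : eval x h ≠ 0) :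
    (tors I).isoModSerre ((mulA I hh).app (cy (ih_ptI x) hx)) := by
  rw [isoModSerre_eq]
  refine ⟨0, fun a ha => ⟨?_, fun y => ?_⟩⟩
  · rw [injective_iff_map_eq_zero]
    intro y hy
    obtain ⟨f, hf, rfl⟩ := cl_surj _ y
    have h1 : Hg (2 * (a + d - a)) h := by rwa [add_sub_cancel_left]
    have h2 := (mem_ptI (hga_mul hh hf)).1 (cl_eq_zero.1 ((act_cl h1 hf).symm.trans hy))
    rw [map_mul] at h2
    exact cl_eq_zero.2 ((mem_ptI hf).2 ((mul_eq_zero.1 h2).resolve_left h0))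
  · obtain ⟨f, hf, rfl⟩ := cl_surj _ (a := a + d) y
    lift a to ℕ using ha
    have h1 : Hg (2 * ((a : ℤ) + d - a)) h := by rwa [add_sub_cancel_left]
    have h2 : Hg (2 * (a : ℤ)) ((eval x f / (eval x h * x i ^ a)) • (X i ^ a : Sn ν)) :=
      hga_smul _ (hg_X_pow i a rfl)
    refine ⟨cl _ _ h2, (act_cl h1 h2).trans (cl_eq.2 ((mem_ptI (hga_sub
      (hga_mul' h1 h2 (by ring)) hf)).2 ?_))⟩
    rw [map_sub, map_mul, smul_eval, map_pow, eval_X]
    field_simp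
    ring

theorem not_tors_pt (hx : I ≤ ptI x) {i : Fin ν} (hi : x i ≠ 0) :
    ¬ tors I (cy (ih_ptI x) hx) := by
  rintro ⟨N, hN⟩
  have h1 := hN (N.toNat : ℤ) (by lia)
  have h2 : Hg (2 * (N.toNat : ℤ)) (X i ^ N.toNat : Sn ν) := hg_X_pow i _ rfl
  have h3 := (mem_ptI h2).1 (cl_eq_zero.1 (@Subsingleton.elim _ h1 (cl (ptI x) _ h2) 0))
  rw [map_pow, eval_X] at h3
  exact pow_ne_zero _ hi h3

/-- a map onto the ring in large degrees reaches a power of a variable -/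
theorem exists_lift (hI : IH I) (i : Fin ν) {Z : GA I} (g : Z ⟶ cy hI le_rfl)
    (hg : (tors I).epiModSerre g) : ∃ (m : ℕ) (u : cy hI le_rfl ⟶ (twA I m).obj Z),
      u ≫ (twA I m).map g = (mulA I (hg_X_pow i m rfl)).app (cy hI le_rfl) := by
  obtain ⟨n, hn⟩ := (epi_iff I g).1 hg
  obtain ⟨z, hz⟩ := hn (0 / 2 + (n.toNat : ℤ)) (by lia)
    ((mulS (hg_X_pow i n.toNat rfl) (FrO I z1)).app ⟨0 / 2⟩ (gen I z1 0))
  refine ⟨n.toNat, ObjectProperty.homMk (desc (q := z1) (M := (twS (n.toNat : ℤ)).obj Z.obj)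
    (killed_tw Z.property.1 _) fun _ => z), ObjectProperty.hom_ext _
    (FrO.hom_ext I fun j hj => ?_)⟩
  obtain rfl := Subsingleton.elim j 0
  exact (congrArg (g.hom.app ⟨0 / 2 + (n.toNat : ℤ)⟩) (desc_gen (q := z1)
    (M := (twS (n.toNat : ℤ)).obj Z.obj) (killed_tw Z.property.1 _) (fun _ => z) 0 hj)).trans hz

variable {𝒞 : Type u} [Category.{v} 𝒞] [Abelian 𝒞] (π : GA I ⥤ 𝒞) [π.Additive]
  [π.IsLocalization (tors I).isoModSerre]

theorem hom_pt [Linear ℂ 𝒞] [π.Linear ℂ] (hI : IH I) (hx : I ≤ ptI x) {i : Fin ν} (hi : x i ≠ 0) :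
    Module.finrank ℂ (π.obj (cy hI le_rfl) ⟶ π.obj (cy (ih_ptI x) hx)) = 1 := by
  let p : cy hI le_rfl ⟶ cy (ih_ptI x) hx := ObjectProperty.homMk (cyPr hx)
  refine finrank_eq_one_iff'.2 ⟨π.map p, fun h0 => ?_, fun φ => ?_⟩
  · have : Epi p := GA_epi_of_surjective I _ fun a y => by
      obtain ⟨f, hf, rfl⟩ := cl_surj _ y
      exact ⟨cl I f hf, rfl⟩
    have := (ObjectProperty.SerreClassLocalization.preservesEpimorphisms π (tors I)).preserves p
    refine not_tors_pt hx hi ((ObjectProperty.SerreClassLocalization.isZero_obj_iff π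
      (tors I) _).1 ?_)
    rw [IsZero.iff_id_eq_zero, ← cancel_epi (π.map p), h0, zero_comp, zero_comp]
  · obtain ⟨r, hr⟩ := Localization.exists_rightFraction π (tors I).isoModSerre φ
    have h1 : π.map r.s ≫ φ = π.map r.f := by rw [hr, r.map_s_comp_map]
    obtain ⟨m, u, hu⟩ := exists_lift hI i r.s r.hs.2
    have hh : Hg (2 * (m : ℤ)) (X i ^ m : Sn ν) := hg_X_pow i m rfl
    obtain ⟨τ, _, _, _, f, e, he⟩ := exists_tw I π hh
    have h2 : IsIso (π.map ((mulA I hh).app (cy (ih_ptI x) hx))) :=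
      Localization.inverts π _ _ (mul_pt hx hi hh (by simpa using fun h => absurd h hi))
    have h3 : IsIso (f.app (π.obj (cy (ih_ptI x) hx))) := by rw [he]; infer_instance
    obtain ⟨v, hv, hv'⟩ := cl_surj (ptI x) (a := 0 / 2 + (m : ℤ))
      ((u ≫ (twA I m).map r.f).hom.app ⟨0 / 2⟩ (gen I z1 0))
    have h4 : u ≫ (twA I m).map r.f =
        (eval x v / x i ^ m) • (p ≫ (mulA I hh).app (cy (ih_ptI x) hx)) := by
      refine ObjectProperty.hom_ext _ (FrO.hom_ext I fun j hj => ?_)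
      obtain rfl := Subsingleton.elim j 0
      refine hv'.symm.trans ?_
      have h5 : Hg (2 * (0 / 2 + (m : ℤ) - 0 / 2)) (X i ^ m : Sn ν) := by simpa using hh
      have h6 : Hg (2 * (0 / 2 : ℤ)) (1 : Sn ν) := by simpa using hga_one
      change _ = (eval x v / x i ^ m) • act (FrO (ptI x) z1) (X i ^ m) (0 / 2) (0 / 2 + (m : ℤ))
        ((cyPr hx).app ⟨0 / 2⟩ (gen I z1 0))
      rw [gen_eq, cyPr_cl, act_cl h5 h6, cl_smul]
      refine cl_eq.2 ((mem_ptI (hga_sub hv (hga_smul _ (hga_mul' h5 h6 (by ring))))).2 ?_)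
      rw [map_sub, smul_eval, mul_one, map_pow, eval_X, div_mul_cancel₀ _ (pow_ne_zero _ hi),
        sub_self]
    refine ⟨eval x v / x i ^ m, ?_⟩
    have h5 : φ ≫ f.app _ = f.app _ ≫ τ.map φ := f.naturality φ
    have h6 : π.map ((twA I m).map r.s) ≫ e.inv.app _ = e.inv.app _ ≫ τ.map (π.map r.s) :=
      e.inv.naturality r.s
    have h7 : π.map ((twA I m).map r.f) ≫ e.inv.app _ = e.inv.app _ ≫ τ.map (π.map r.f) :=
      e.inv.naturality r.f
    have h8 : φ ≫ f.app (π.obj (cy (ih_ptI x) hx)) =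
        π.map (u ≫ (twA I m).map r.f) ≫ e.inv.app (cy (ih_ptI x) hx) := by
      refine h5.trans ?_
      rw [he (cy hI le_rfl), ← hu, π.map_comp, π.map_comp, Category.assoc, Category.assoc,
        Category.assoc, h7, ← h1, τ.map_comp]
      exact congrArg (_ ≫ ·) ((Category.assoc _ _ _).symm.trans ((congrArg (· ≫ _) h6).trans
        (Category.assoc _ _ _)))
    rw [← cancel_mono (f.app (π.obj (cy (ih_ptI x) hx))), h8, h4, π.map_smul, he, π.map_comp,
      Linear.smul_comp, Linear.smul_comp, Category.assoc]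

variable [HasDerivedCategory.{w} 𝒞]

theorem ext_killed (hx : I ≤ ptI x) {i : Fin ν} (hi : x i ≠ 0) {h : Sn ν} {d : ℕ}
    (hh : Hg (2 * (d : ℤ)) h) (h0 : eval x h ≠ 0) {M : GA I} (hM : (mulA I hh).app M = 0) (k : ℤ)
    (ξ : (DerivedCategory.singleFunctor 𝒞 0).obj (π.obj M) ⟶
      ((DerivedCategory.singleFunctor 𝒞 0).obj (π.obj (cy (ih_ptI x) hx)))⟦k⟧) : ξ = 0 := by
  obtain ⟨τ, _, _, _, f, e, he⟩ := exists_tw I π hh
  have h2 : IsIso (π.map ((mulA I hh).app (cy (ih_ptI x) hx))) :=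
    Localization.inverts π _ _ (mul_pt hx hi hh h0)
  refine hom_zero (fun A p _ => ⟨τ, ‹_›, ‹_›, ‹_›, f, by rw [he]; infer_instance, 0, ?_,
    Or.inr rfl⟩) ξ
  rw [he, hM, π.map_zero, zero_comp, zero_comp]

theorem ext_free (hI : IH I) (hx : I ≤ ptI x) {i : Fin ν} (hi : x i ≠ 0) (k : ℤ) (hk : k ≠ 0)
    (ξ : (DerivedCategory.singleFunctor 𝒞 0).obj (π.obj (cy hI le_rfl)) ⟶
      ((DerivedCategory.singleFunctor 𝒞 0).obj (π.obj (cy (ih_ptI x) hx)))⟦k⟧) : ξ = 0 := by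
  refine hom_zero (fun A p hp => ?_) ξ
  have := Localization.essSurj π (tors I).isoModSerre
  let ε := π.objObjPreimageIso A
  obtain ⟨r, hr⟩ := Localization.exists_rightFraction π (tors I).isoModSerre (ε.hom ≫ p)
  have h1 : π.map r.s ≫ ε.hom ≫ p = π.map r.f := by rw [hr, r.map_s_comp_map]
  have h0 := Localization.inverts π _ _ r.hs
  have h3 : Epi (π.map r.f) := by rw [← h1]; infer_instance
  obtain ⟨m, u, hu⟩ := exists_lift hI i r.f
    ((ObjectProperty.SerreClassLocalization.epi_map_iff π (tors I) _).1 h3)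
  have hh : Hg (2 * (m : ℤ)) (X i ^ m : Sn ν) := hg_X_pow i m rfl
  obtain ⟨τ, _, _, _, f, e, he⟩ := exists_tw I π hh
  have h2 : IsIso (π.map ((mulA I hh).app (cy (ih_ptI x) hx))) :=
    Localization.inverts π _ _ (mul_pt hx hi hh (by simpa using fun h => absurd h hi))
  have h7 : π.map ((twA I m).map r.f) ≫ e.inv.app _ = e.inv.app _ ≫ τ.map (π.map r.f) :=
    e.inv.naturality r.f
  refine ⟨τ, ‹_›, ‹_›, ‹_›, f, by rw [he]; infer_instance,
    π.map u ≫ e.inv.app _ ≫ τ.map (π.map r.s ≫ ε.hom), ?_, Or.inl hk⟩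
  rw [he, ← hu, π.map_comp, Category.assoc, Category.assoc, Category.assoc, ← τ.map_comp,
    Category.assoc, h1, h7]

end Vale.Agent.P287Z
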