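import Vale.Agent.P287Z.Gr.PjO
import Vale.Agent.P287Z.Gr.PiF
import Vale.Agent.P294Z.Qg

/-!
# The grading of a quotient of the polynomial ring by a homogeneous ideal
-/

open MvPolynomial

namespace Vale.Agent.P287Z.Gr

open Vale.Agent.P294Z Vale.Agent.P294.V

theorem qg_isInternal {A : Type} [CommRing A] [Algebra ℂ A] (𝒜 : ℕ → Submodule ℂ A)
    [GradedAlgebra 𝒜] {P : Ideal A} (hP : P.IsHomogeneous 𝒜) : DirectSum.IsInternal
    fun t => (𝒜 t).map (Ideal.Quotient.mkₐ ℂ P).toLinearMap := by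
  classical
  rw [DirectSum.isInternal_submodule_iff_iSupIndep_and_iSup_eq_top]
  constructor
  · rw [iSupIndep_iff_finsetSum_eq_zero_imp_eq_zero]
    intro s v hv h0 i hi
    have h1 : ∀ i, ∃ a ∈ 𝒜 i, i ∈ s → Ideal.Quotient.mk P a = v i := by
      intro i
      by_cases hi : i ∈ s
      · obtain ⟨a, ha, h⟩ := hv i hi
        exact ⟨a, ha, fun _ => h⟩
      · exact ⟨0, zero_mem _, fun h => absurd h hi⟩
    choose a ha hav using h1
    have h2 : ∑ j ∈ s, a j ∈ P := by
      rw [← Ideal.Quotient.eq_zero_iff_mem, map_sum, ← h0]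
      exact Finset.sum_congr rfl fun j hj => hav j hj
    have h3 := hP i h2
    have h4 : (DirectSum.decompose 𝒜 (∑ j ∈ s, a j) i : A) = a i := by
      rw [DirectSum.decompose_sum, DirectSum.sum_apply, AddSubmonoidClass.coe_finsetSum,
        Finset.sum_eq_single i]
      · exact DirectSum.decompose_of_mem_same _ (ha i)
      · intro j _ hj
        exact DirectSum.decompose_of_mem_ne _ (ha j) hj
      · intro h
        exact absurd hi h
    rw [h4] at h3
    rw [← hav i hi]
    exact Ideal.Quotient.eq_zero_iff_mem.2 h3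
  · rw [eq_top_iff]
    rintro x -
    obtain ⟨a, rfl⟩ := Ideal.Quotient.mk_surjective x
    rw [← DirectSum.sum_support_decompose 𝒜 a, map_sum]
    exact Submodule.sum_mem _ fun i _ => Submodule.mem_iSup_of_mem i
      ⟨_, (DirectSum.decompose 𝒜 a i).2, rfl⟩

variable {ν : ℕ}

theorem qg_graded {I : Ideal (Sn ν)} (h : ∀ f ∈ I, ∀ n : ℕ, homogeneousComponent n f ∈ I) :
    Nonempty (GradedAlgebra fun t =>
      (homogeneousSubmodule (Fin ν) ℂ t).map (Ideal.Quotient.mkₐ ℂ I).toLinearMap) := by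
  let _ : GradedAlgebra (homogeneousSubmodule (Fin ν) ℂ) := gradedAlgebra
  exact ⟨{ toGradedMonoid := qg_gradedMonoid _ _
           toDecomposition := DirectSum.IsInternal.chooseDecomposition _
             (qg_isInternal _ fun n f hf => by
              rw [show (DirectSum.decompose (homogeneousSubmodule (Fin ν) ℂ) f n : Sn ν) =
                homogeneousComponent n f from decomposition.decompose'_apply f n]
              exact h f hf n) }⟩

theorem hpart_two_mul (n : ℕ) (f : Sn ν) : hpart (2 * (n : ℤ)) f = homogeneousComponent n f := by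
  ext m
  rw [coeff_hpart, coeff_homogeneousComponent]
  by_cases h : m.degree = n
  · rw [if_pos h, if_pos (by rw [h])]
  · rw [if_neg h, if_neg (fun h' => h (by lia))]

theorem ih_iff {I : Ideal (Sn ν)} :
    IH I ↔ ∀ f ∈ I, ∀ n : ℕ, homogeneousComponent n f ∈ I := by
  refine ⟨fun h f hf n => hpart_two_mul n f ▸ h f hf _, fun h f hf k => ?_⟩
  by_cases hk : ∃ n : ℕ, 2 * (n : ℤ) = k
  · obtain ⟨n, rfl⟩ := hk
    rw [hpart_two_mul]
    exact h f hf n
  · rw [hga_eq_zero (hga_hpart k f) fun n hn => hk ⟨n, hn⟩]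
    exact I.zero_mem

theorem ih_span {f : Sn ν} {k : ℤ} (hf : Hg k f) : IH (Ideal.span {f}) := by
  intro g hg l
  obtain ⟨u, rfl⟩ := Ideal.mem_span_singleton.1 hg
  rw [hpart_mul hf]
  exact Ideal.mem_span_singleton.2 (dvd_mul_right _ _)

namespace Chart

open CategoryTheory Limits AlgebraicGeometry

variable {Y : Scheme.{0}} {W : Ideal (Sn ν)} {c : Chart Y W}

/-- a trivializing section identifies the sheaf with the sheaf of a free module of rank one -/
theorem Triv.tilde (hW : IH W) {L : Y.Modules} {a : ℤ} {x : (c.G L).obj ⟨2 * a / 2⟩}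
    (hx : c.Triv x) :
    c.IsTilde (desc (q := fun _ : Fin 1 => 2 * a) (c.killed_G hW) fun _ => x) := by
  have hq : ∀ k : Fin 1, (fun _ : Fin 1 => 2 * a) k = 2 * ((fun _ : Fin 1 => 2 * a) k / 2) :=
    fun _ => by lia
  refine ⟨fun i => hx.loc i, fun i s => ?_, fun i b v hv => ?_⟩
  · obtain ⟨r, hr⟩ := (hx i _ le_rfl).2 s
    obtain ⟨b, v, hv⟩ := c.desc_surj hq hW (fun _ => x) i fun _ => r
    refine ⟨b, v, hv.trans ?_⟩
    rw [Fin.sum_univ_one, ← hr, rs_self]
  · obtain ⟨v, h, rfl⟩ := FrO.mk_surj W v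
    rw [c.cp_desc hq hW, Fin.sum_univ_one] at hv
    have h1 : c.ev i (v 0) = 0 := (hx i _ le_rfl).1 (by
      simp only [rs_self, zero_smul]
      exact hv)
    obtain ⟨n, hn⟩ := c.ker i (b - a) (v 0) (by
      have := h 0
      rwa [show 2 * b - 2 * a = 2 * (b - a) by ring] at this) h1
    refine ⟨b + n, by lia, ?_⟩
    rw [up, FrO.act_mk W (hg_up i (by lia)) h fun k => hga_mul' (hg_up i (a := b) (b := b + n)
      (by lia)) (h k) (by ring), FrO.mk_eq_zero]
    intro k
    rw [show (b + n - b).toNat = n by lia, Subsingleton.elim k 0]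
    exact hn

end Chart

end Vale.Agent.P287Z.Gr
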